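import Vale.Agent.P167.H825.Q.Rows
import Vale.Agent.P167.XDL.EnlQ
import Vale.Agent.P167.QX.Stag

/-!
# P167, general `q`, block 2A: the frame of rows around a polygon

The squares of the walls are the squares outside of the enlarged polygon at the steps of the walls;
the outward phase and the colour of a square are those of the step.
-/

namespace Vale.Agent.P167.H825.Q

open Finset
open Vale.Agent.P167.XDL (bS mem_bS)
open Vale.Agent.P167.H680.T (WallG)
open Vale.Agent.P167.H825 (pdir ptau Marks rnd bsite enl)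
open Vale.Agent.P167.E6 (IsPolygon Encloses dir face)
open Vale.Agent.P167.Enl (kOf uN sW eW tB)

/-! ### a row along a side -/

/-- The row outside of the side which starts at the site `z` in the direction `r` (the domain is on
the left of the side), steps `s ≤ σ < e`. `F σ` and `T σ` are the outward phase and the colour at the
step `σ`; they are constant before and after the step `jp`. -/
noncomputable def srow (z : ℤ × ℤ) (r : Fin 4) (s e jp : ℕ) (F T : ℕ → ℝ) : Row :=
  match r with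
  | 0 => ⟨true, (z.1 + s, z.2 - 1), e - s, F s, F (e - 1) - F s, T s, T s * T (e - 1), jp - s⟩
  | 1 => ⟨false, (z.1, z.2 + s), e - s, F s, F (e - 1) - F s, T s, T s * T (e - 1), jp - s⟩
  | 2 => ⟨true, (z.1 - e, z.2), e - s, F (e - 1), F s - F (e - 1), T (e - 1), T s * T (e - 1),
      e - jp⟩
  | 3 => ⟨false, (z.1 - 1, z.2 - e), e - s, F (e - 1), F s - F (e - 1), T (e - 1),
      T s * T (e - 1), e - jp⟩

/-- The square outside of the step `σ`. -/
def osq (z : ℤ × ℤ) (r : Fin 4) (σ : ℕ) : ℤ × ℤ := face (z + (σ : ℤ) • dir r) (r - 1)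

theorem srow_L (z : ℤ × ℤ) (r : Fin 4) (s e jp : ℕ) (F T : ℕ → ℝ) :
    (srow z r s e jp F T).L = e - s := by
  fin_cases r <;> rfl

/-- The squares of the row. -/
theorem srow_sq (z : ℤ × ℤ) (r : Fin 4) {s e jp σ : ℕ} (F T : ℕ → ℝ) (h1 : s ≤ σ) (h2 : σ < e) :
    (srow z r s e jp F T).sq (Enl.idx r s e σ) = osq z r σ := by
  obtain ⟨x, y⟩ := z
  fin_cases r
  · show (x + (s : ℤ) + ((σ - s : ℕ) : ℤ), y - 1) = (x, y) + (σ : ℤ) • ((1, 0) : ℤ × ℤ) + (0, -1)
    simp only [Prod.smul_mk, smul_eq_mul, Prod.mk_add_mk, Prod.mk.injEq]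
    omega
  · show (x, y + (s : ℤ) + ((σ - s : ℕ) : ℤ)) = (x, y) + (σ : ℤ) • ((0, 1) : ℤ × ℤ) + (0, 0)
    simp only [Prod.smul_mk, smul_eq_mul, Prod.mk_add_mk, Prod.mk.injEq]
    omega
  · show (x - (e : ℤ) + ((e - 1 - σ : ℕ) : ℤ), y) =
      (x, y) + (σ : ℤ) • ((-1, 0) : ℤ × ℤ) + (-1, 0)
    simp only [Prod.smul_mk, smul_eq_mul, Prod.mk_add_mk, Prod.mk.injEq]
    omega
  · show (x - 1, y - (e : ℤ) + ((e - 1 - σ : ℕ) : ℤ)) =
      (x, y) + (σ : ℤ) • ((0, -1) : ℤ × ℤ) + (-1, -1)
    simp only [Prod.smul_mk, smul_eq_mul, Prod.mk_add_mk, Prod.mk.injEq]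
    omega

theorem mem_srow {z : ℤ × ℤ} {r : Fin 4} {s e jp : ℕ} {F T : ℕ → ℝ} {v : ℤ × ℤ} :
    v ∈ (srow z r s e jp F T).I ↔ ∃ σ, s ≤ σ ∧ σ < e ∧ v = osq z r σ := by
  unfold Row.I
  rw [mem_image]
  constructor
  · rintro ⟨k, hk, rfl⟩
    rw [mem_range, srow_L] at hk
    obtain ⟨σ, h1, h2, rfl⟩ := Enl.exists_idx r hk
    exact ⟨σ, h1, h2, srow_sq z r F T h1 h2⟩
  · rintro ⟨σ, h1, h2, rfl⟩
    refine ⟨Enl.idx r s e σ, ?_, srow_sq z r F T h1 h2⟩
    rw [mem_range, srow_L]
    exact Enl.idx_lt r h1 h2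

/-- `F` is constant before and after `jp`. -/
def Cst (s e jp : ℕ) (F : ℕ → ℝ) : Prop :=
  ∀ σ, s ≤ σ → σ < e → F σ = if σ < jp then F s else F (e - 1)

theorem srow_Φ (z : ℤ × ℤ) (r : Fin 4) {s e jp σ : ℕ} {F T : ℕ → ℝ} (hF : Cst s e jp F)
    (h1 : s ≤ σ) (h2 : σ < e) : (srow z r s e jp F T).Φ (osq z r σ) = F σ := by
  rw [← srow_sq z r (jp := jp) F T h1 h2, Row.Φ_sq, hF σ h1 h2]
  have hse : F s = F (e - 1) ∨ s < jp := by
    by_cases h : s < jp
    · exact Or.inr h
    · have := hF s le_rfl (by omega)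
      rw [if_neg h] at this
      exact Or.inl this
  have hee : F s = F (e - 1) ∨ jp < e := by
    by_cases h : jp < e
    · exact Or.inr h
    · have := hF (e - 1) (by omega) (by omega)
      rw [if_pos (by omega)] at this
      exact Or.inl this.symm
  fin_cases r
  · show (F s + if jp - s ≤ σ - s then F (e - 1) - F s else 0) = _
    by_cases h : σ < jp
    · rw [if_pos h, if_neg (by omega), add_zero]
    · rw [if_neg h, if_pos (by omega)]; ring
  · show (F s + if jp - s ≤ σ - s then F (e - 1) - F s else 0) = _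
    by_cases h : σ < jp
    · rw [if_pos h, if_neg (by omega), add_zero]
    · rw [if_neg h, if_pos (by omega)]; ring
  · show (F (e - 1) + if e - jp ≤ e - 1 - σ then F s - F (e - 1) else 0) = _
    by_cases h : σ < jp
    · rw [if_pos h, if_pos (by omega)]; ring
    · rw [if_neg h, if_neg (by omega), add_zero]
  · show (F (e - 1) + if e - jp ≤ e - 1 - σ then F s - F (e - 1) else 0) = _
    by_cases h : σ < jp
    · rw [if_pos h, if_pos (by omega)]; ring
    · rw [if_neg h, if_neg (by omega), add_zero]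

theorem srow_τ (z : ℤ × ℤ) (r : Fin 4) {s e jp σ : ℕ} {F T : ℕ → ℝ} (hT : Cst s e jp T)
    (hT1 : ∀ k, T k = 1 ∨ T k = -1)
    (h1 : s ≤ σ) (h2 : σ < e) : (srow z r s e jp F T).τ (osq z r σ) = T σ := by
  rw [← srow_sq z r (jp := jp) F T h1 h2, Row.τ_sq, hT σ h1 h2]
  have hs : T s * T s = 1 := by rcases hT1 s with h | h <;> rw [h] <;> norm_num
  have he : T (e - 1) * T (e - 1) = 1 := by rcases hT1 (e - 1) with h | h <;> rw [h] <;> norm_num
  fin_cases r
  · show (T s * if jp - s ≤ σ - s then T s * T (e - 1) else 1) = _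
    by_cases h : σ < jp
    · rw [if_pos h, if_neg (by omega), mul_one]
    · rw [if_neg h, if_pos (by omega), ← mul_assoc, hs, one_mul]
  · show (T s * if jp - s ≤ σ - s then T s * T (e - 1) else 1) = _
    by_cases h : σ < jp
    · rw [if_pos h, if_neg (by omega), mul_one]
    · rw [if_neg h, if_pos (by omega), ← mul_assoc, hs, one_mul]
  · show (T (e - 1) * if e - jp ≤ e - 1 - σ then T s * T (e - 1) else 1) = _
    by_cases h : σ < jp
    · rw [if_pos h, if_pos (by omega)]
      calc T (e - 1) * (T s * T (e - 1)) = T s * (T (e - 1) * T (e - 1)) := by ring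
        _ = T s := by rw [he, mul_one]
    · rw [if_neg h, if_neg (by omega), mul_one]
  · show (T (e - 1) * if e - jp ≤ e - 1 - σ then T s * T (e - 1) else 1) = _
    by_cases h : σ < jp
    · rw [if_pos h, if_pos (by omega)]
      calc T (e - 1) * (T s * T (e - 1)) = T s * (T (e - 1) * T (e - 1)) := by ring
        _ = T s := by rw [he, mul_one]
    · rw [if_neg h, if_neg (by omega), mul_one]

/-! ### boundary conditions -/

/-- Free, wired or Dobrushin boundary conditions (free from the base site to the site at the position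
`ta` of the side `ia`, wired from there). -/
inductive Bc
  | free
  | wired
  | dob (ia : ℕ) (ta : ℝ)

/-- The first wired step. -/
noncomputable def Bc.ka (l n t : ℕ) : Bc → ℕ
  | .free => l * n
  | .wired => 0
  | .dob ia ta => kOf l n t ia ⌊ta * n⌋₊

/-- The position of the junction on its side. -/
noncomputable def Bc.tn (n : ℕ) : Bc → ℕ
  | .dob _ ta => ⌊ta * n⌋₊
  | _ => 0

/-- The junction is not on the side of the base site and not at a mark. -/
def Bc.Ok (l : ℕ) (Q : Marks) : Bc → Prop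
  | .dob ia ta => 0 < ia ∧ ia < l ∧ 0 < ta ∧ ta < 1 ∧ ∀ j, Q.θ ia j ≠ ta
  | _ => True

/-- The outward phase at the step `k`. -/
noncomputable def stΦ (θ β : ℝ) (u : ℕ → ℤ) (ka k : ℕ) : ℝ :=
  θ / 4 * u k + if k < ka then 0 else β

/-- The colour of the step `k`. -/
noncomputable def stτ (ka k : ℕ) : ℝ := if k < ka then 1 else -1

theorem stτ_or (ka k : ℕ) : stτ ka k = 1 ∨ stτ ka k = -1 := by
  unfold stτ
  split_ifs
  · exact Or.inl rfl
  · exact Or.inr rfl

section frame

variable {l : ℕ} (θ β : ℝ) (p : ZMod l → ℤ × ℤ) (Q : Marks) (n d : ℕ) (bc : Bc)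

/-- The `j`-th row of the `i`-th side. -/
noncomputable def frow (i j : ℕ) : Row :=
  srow ((n : ℤ) • p i) (pdir p i) (sW p n Q d i j) (eW p n Q d i j)
    (if i = 0 then tB n Q else bc.tn n)
    (fun σ => stΦ θ β (uN p n (tB n Q)) (bc.ka l n (tB n Q)) (kOf l n (tB n Q) i σ))
    (fun σ => stτ (bc.ka l n (tB n Q)) (kOf l n (tB n Q) i σ))

/-- **The frame of the polygon with holes of size `2 d` at the marks**, with the labels `Zr` and the
flow `c`. -/
noncomputable def PT (Zr : ℕ → Row → ℝ) (c : Ed → ℝ) : H680.T.WCG (Fin l × Fin (Q.m + 1)) :=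
  ⟨fun x => (frow θ β p Q n d bc x.1 x.2).wall θ (Zr n (frow θ β p Q n d bc x.1 x.2)), c⟩

end frame

/-- The functional `V` of the enlarged polygon: `f` is the charge on the sites, the charge `- ∑ f` is
at the base site. -/
noncomputable def VT {l : ℕ} (θ β : ℝ) (p : ZMod l → ℤ × ℤ) (S₀ : Finset (ℤ × ℤ)) (n t ka : ℕ)
    (f : ℤ × ℤ → ℝ) : ℝ :=
  QX.ZQ θ (Enl.qN p n t) (enl S₀ n) (QX.stag θ β (Enl.qN p n t) ka) f /
    QX.ZQ θ (Enl.qN p n t) (enl S₀ n) (QX.stag θ β (Enl.qN p n t) ka) 0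

end Vale.Agent.P167.H825.Q
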