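import Vale.Agent.P167.H680.T.Thick
import Vale.Agent.P167.E6.Defs

/-!
# P167, general `q`, block 2A: thick walls

The thick walls of `H680/T/Thick` (`thk θ I Φ τ z`) for rows `I` of squares.
-/

namespace Vale.Agent.P167.H825.Q

open Finset
open Vale.Agent.P167.H680.T (WallG thk)

/-! ### rows -/

/-- A row of squares and its phases: `L` squares to the right of (`o`) or above (not `o`) the square
`x`; raw outward phase `c` and colour `s` for the squares `k < k0`, `c + j` and `η s` for `k0 ≤ k`. -/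
@[ext] structure Row where
  o : Bool
  x : ℤ × ℤ
  L : ℕ
  c : ℝ
  j : ℝ
  s : ℝ
  η : ℝ
  k0 : ℕ

/-- The `k`-th square. -/
def Row.sq (r : Row) (k : ℕ) : ℤ × ℤ := if r.o then (r.x.1 + k, r.x.2) else (r.x.1, r.x.2 + k)

/-- The squares. -/
def Row.I (r : Row) : Finset (ℤ × ℤ) := (range r.L).image r.sq

/-- The index of a square. -/
def Row.ix (r : Row) (v : ℤ × ℤ) : ℕ := if r.o then (v.1 - r.x.1).toNat else (v.2 - r.x.2).toNat

/-- The phase of a square. -/
noncomputable def Row.Φ (r : Row) (v : ℤ × ℤ) : ℝ := r.c + if r.k0 ≤ r.ix v then r.j else 0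

/-- The colour of a square. -/
noncomputable def Row.τ (r : Row) (v : ℤ × ℤ) : ℝ := r.s * if r.k0 ≤ r.ix v then r.η else 1

/-- **The wall of a row.** -/
noncomputable def Row.wall (θ : ℝ) (r : Row) (z : ℝ) : WallG := thk θ r.I r.Φ r.τ z

theorem Row.ix_sq (r : Row) (k : ℕ) : r.ix (r.sq k) = k := by
  unfold Row.ix Row.sq
  by_cases h : r.o = true
  · rw [if_pos h, if_pos h]
    show (r.x.1 + k - r.x.1).toNat = k
    omega
  · rw [if_neg h, if_neg h]
    show (r.x.2 + k - r.x.2).toNat = k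
    omega

theorem Row.Φ_sq (r : Row) (k : ℕ) : r.Φ (r.sq k) = r.c + if r.k0 ≤ k then r.j else 0 := by
  unfold Row.Φ
  rw [r.ix_sq]

theorem Row.τ_sq (r : Row) (k : ℕ) : r.τ (r.sq k) = r.s * if r.k0 ≤ k then r.η else 1 := by
  unfold Row.τ
  rw [r.ix_sq]

/-- **The kinds of rows.** Plain rows; rows with a junction of the free and the wired part
(`|j| = (π - θ)/2` or `(π - 3 θ)/2`, the colour changes); rows with the base point of the free or of
the wired functional (`|j| = θ`, the colour does not change). The special point is at distance at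
least `κ n` from the ends. -/
structure Row.Ok (θ κ : ℝ) (n : ℕ) (r : Row) : Prop where
  len : κ * n ≤ r.L
  s : r.s = 1 ∨ r.s = -1
  kind : (r.j = 0 ∧ r.η = 1) ∨
    ((((|r.j| = (Real.pi - θ) / 2 ∨ |r.j| = (Real.pi - 3 * θ) / 2) ∧ r.η = -1) ∨
      (|r.j| = θ ∧ r.η = 1)) ∧ κ * n ≤ r.k0 ∧ r.k0 + κ * n ≤ r.L)

/-- The walls of the rows, with the normalisations `Zr n r` as labels. -/
def rowP (θ : ℝ) (Zr : ℕ → Row → ℝ) (κ : ℝ) (n : ℕ) (w : WallG) : Prop :=
  ∃ r : Row, r.Ok θ κ n ∧ w = r.wall θ (Zr n r)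

/-- **The class of the thick walls** (all images under translations and reflections of the walls of
rows). -/
def clR (θ : ℝ) (Zr : ℕ → Row → ℝ) : H680.T.Cls := H680.T.clL (rowP θ Zr)

theorem Row.Ok.mono {θ κ κ' : ℝ} {n : ℕ} {r : Row} (h : κ' * n ≤ κ * n) (hr : r.Ok θ κ n) :
    r.Ok θ κ' n where
  len := h.trans hr.len
  s := hr.s
  kind := by
    rcases hr.kind with h1 | ⟨h1, h2, h3⟩
    · exact Or.inl h1
    · exact Or.inr ⟨h1, by linarith, by linarith⟩

theorem clR_ok {θ : ℝ} {Zr : ℕ → Row → ℝ}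
    (hpos : ∀ {κ : ℝ}, 0 < κ → ∀ᶠ n : ℕ in Filter.atTop, ∀ r : Row, r.Ok θ κ n → 0 < Zr n r) :
    (clR θ Zr).Ok := by
  refine H680.T.clL_ok ?_ ?_
  · rintro κ κ' n w h ⟨r, hr, rfl⟩
    exact ⟨r, hr.mono h, rfl⟩
  · intro κ hκ
    filter_upwards [hpos hκ] with n hn
    rintro w ⟨r, hr, rfl⟩
    exact hn r hr

/-- The frozen state of a square of a row: open where the colour is `-1`. -/
noncomputable def Row.fr (r : Row) (v : ℤ × ℤ) : Bool := decide (r.τ v = -1)

end Vale.Agent.P167.H825.Q
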