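import Vale.Agent.P167.H825.Q.DefsQ
import Vale.Agent.P167.H542.Q.FamB
import Vale.Agent.P167.H718.DobN
import Vale.Agent.P167.H662.L.LDefs2
import Vale.Agent.P167.CA.Mom

/-!
# P167, general `q`, block 2A: the Dobrushin functionals of the enlargements of a lattice polygon

`bdQ S θ β bc`: helper542's data `BD` for the free, the wired or the Dobrushin boundary conditions
`bc`, base site at the position `tp` of the side `0`. `twoA_of`: the output of block 2A in the form of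
the block Q-LAYER.
-/

namespace Vale.Agent.P167.H825.Q

open Finset Filter Topology MeasureTheory
open Vale.Agent.P167.H825 (Box enl pdir)
open Vale.Agent.P167.H718 (Dob Chordless etaW dob_etaW chordless_re)
open Vale.Agent.P167.E6 (IsPolygon Encloses dir)
open Vale.Agent.P167.H662.L (TwoA)
open Vale.Agent.P167.H542.Q (BD)

/-! ### polygons -/

/-- Identification of the indices. -/
def zc {N M : ℕ} (h : N = M) (x : ZMod N) : ZMod M := cast (congrArg ZMod h) x

theorem zc_val {N M : ℕ} (h : N = M) (x : ZMod N) : (zc h x).val = x.val := by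
  subst h
  rfl

theorem chordless_zc {N M : ℕ} (h : N = M) {q : ZMod M → ℤ × ℤ} (hq : Chordless q) :
    Chordless fun x => q (zc h x) := by
  subst h
  exact hq

variable {l : ℕ} {p : ZMod l → ℤ × ℤ} {S₀ : Finset (ℤ × ℤ)} {n t : ℕ}

theorem PN_pe (hp : IsPolygon p) (n m : ℕ) : Enl.PN p n m = CL.pe p n m := by
  unfold Enl.PN CL.pe
  rw [Enl.pdir_step hp, add_sub_cancel_left]

theorem qN_re (hp : IsPolygon p) (n t : ℕ) :
    Enl.qN p n t = fun x => CL.re p n t (zc (mul_comm l n) x) := by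
  funext x
  unfold Enl.qN CL.re
  rw [zc_val, PN_pe hp]

theorem chordless_qN (hp : IsPolygon p) (hn : 2 ≤ n) (t : ℕ) : Chordless (Enl.qN p n t) := by
  rw [qN_re hp]
  exact chordless_zc _ (chordless_re hp hn t)

/-- **Dobrushin boundary conditions** for the enlargements. -/
theorem dob_qN (hp : IsPolygon p) (hD : Encloses p S₀) (hn : 2 ≤ n) (t k : ℕ) :
    Dob (etaW (enl S₀ n) (Enl.qN p n t) k) (enl S₀ n) (Enl.qN p n t) k :=
  dob_etaW (Enl.isPolygon_qN (by omega) hp t) (Enl.encloses_qN (by omega) hp hD t)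
    (chordless_qN hp hn t)

/-- The base site. -/
theorem qN_zero (ht : t < n) :
    Enl.qN p n t 0 = (n : ℤ) • p 0 + (t : ℤ) • dir (pdir p 0) := by
  unfold Enl.qN Enl.PN
  have h0 : (0 : ZMod (l * n)).val = 0 := ZMod.val_zero
  rw [h0, zero_add, Nat.div_eq_of_lt ht, Nat.mod_eq_of_lt ht, Nat.cast_zero]

theorem Bc.ka_le {bc : Bc} (h : bc.In l) (ht : t < n) : bc.ka l n t ≤ l * n := by
  cases bc with
  | free => exact le_rfl
  | wired => exact Nat.zero_le _
  | dob ia ta =>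
    obtain ⟨h1, h2, h3, h4⟩ := h
    refine (Enl.kOf_lt h2 ?_ ht).le
    rw [Nat.floor_lt (by positivity)]
    have hn : (0 : ℝ) < n := by exact_mod_cast (show 0 < n by omega)
    nlinarith

/-! ### the data -/

section data

variable (S : CA.Dat) (θ β : ℝ) (bc : Bc)

/-- The base position. -/
noncomputable def tN (n : ℕ) : ℕ := ⌊S.tp * (n : ℝ)⌋₊

theorem tN_lt {n : ℕ} (hn : 0 < n) : tN S n < n := by
  unfold tN
  have h0 := S.tp0
  have h1 := S.tp1
  rw [Nat.floor_lt (by positivity)]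
  have hn' : (0 : ℝ) < n := by exact_mod_cast hn
  nlinarith

/-- The polygon with the base site at the position `tp`. -/
noncomputable def qS (n : ℕ) : ZMod (S.l * n) → ℤ × ℤ := Enl.qN S.p n (tN S n)

/-- The first wired step. -/
noncomputable def kS (n : ℕ) : ℕ := bc.ka S.l n (tN S n)

theorem qS_zero {n : ℕ} (hn : 0 < n) : qS S n 0 = S.b n := by
  unfold qS
  rw [qN_zero (tN_lt S hn), H638.L.pdir_zero]
  rfl

/-- **The Dobrushin data** of the boundary conditions `bc`, any outside configurations. -/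
noncomputable def bdG (hbc : bc.In S.l) (L : Filter ℕ) (hL : L ≤ atTop)
    (hc : L.IsCountablyGenerated) (η : ℕ → Cfg)
    (hη : ∀ᶠ n in L, Dob (η n) (S.D n) (qS S n) (kS S bc n)) : BD S θ β where
  L := L
  le := hL
  cg := hc
  N n := S.l * n
  q n := qS S n
  k n := kS S bc n
  η := η
  poly := by
    filter_upwards [hL (eventually_gt_atTop 0)] with n hn
    exact Enl.isPolygon_qN hn S.poly _
  enc := by
    filter_upwards [hL (eventually_gt_atTop 0)] with n hn
    exact Enl.encloses_qN hn S.poly S.enc _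
  kle := by
    filter_upwards [hL (eventually_gt_atTop 0)] with n hn
    exact Bc.ka_le hbc (tN_lt S hn)
  dob := hη

theorem dob_qS : ∀ᶠ n : ℕ in atTop,
    Dob (etaW (S.D n) (qS S n) (kS S bc n)) (S.D n) (qS S n) (kS S bc n) := by
  filter_upwards [eventually_ge_atTop 2] with n hn
  exact dob_qN S.poly S.enc hn _ _

/-- **The Dobrushin data** of the boundary conditions `bc`. -/
noncomputable def bdQ (hbc : bc.In S.l) (L : Filter ℕ) (hL : L ≤ atTop)
    (hc : L.IsCountablyGenerated) : BD S θ β :=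
  bdG S θ β bc hbc L hL hc (fun n => etaW (S.D n) (qS S n) (kS S bc n)) (hL (dob_qS S bc))

/-- General position of a box. -/
def GPos (tp : ℝ) (bc : Bc) (b : Box) : Prop :=
  (∀ i : ℤ, ∀ y ∈ ({b.xl, b.xr, b.yb, b.yt} : Set ℝ), y ≠ i + tp ∧ y ≠ i - tp) ∧ bc.Gp b

end data

/-! ### boxes in general position -/

theorem pick2c {B : Set ℝ} (hB : B.Countable) (x : ℝ) {ε : ℝ} (hε : 0 < ε) :
    ∃ l r : ℝ, x - ε < l ∧ l < x ∧ x < r ∧ r < x + ε ∧
    Int.fract l ≠ 0 ∧ Int.fract r ≠ 0 ∧ Int.fract l ≠ Int.fract r ∧ l ∉ B ∧ r ∉ B := by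
  have hB1 : (Set.range (fun i : ℤ => (i : ℝ)) ∪ B).Countable := (Set.countable_range _).union hB
  have hB' : ∀ y, y ∉ Set.range (fun i : ℤ => (i : ℝ)) ∪ B → Int.fract y ≠ 0 ∧ y ∉ B := by
    intro y hy
    rw [Set.mem_union, not_or] at hy
    refine ⟨fun h => hy.1 ⟨⌊y⌋, ?_⟩, hy.2⟩
    have := Int.floor_add_fract y
    simp only
    linarith
  obtain ⟨l, l1, l2, l3⟩ := CA.pick hB1 (show x - ε < x by linarith)
  obtain ⟨r, r1, r2, r3⟩ := CA.pick (hB1.union (Set.countable_range fun i : ℤ => (i : ℝ) + l))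
    (show x < x + ε by linarith)
  rw [Set.mem_union, not_or] at r3
  refine ⟨l, r, l1, l2, r1, r2, (hB' l l3).1, (hB' r r3.1).1, ?_, (hB' l l3).2, (hB' r r3.1).2⟩
  intro h
  apply r3.2
  refine ⟨⌊r⌋ - ⌊l⌋, ?_⟩
  have h1 := Int.floor_add_fract r
  have h2 := Int.floor_add_fract l
  push_cast
  linarith

/-- The numbers which are not in general position with respect to `t`. -/
def bad (t : ℝ) : Set ℝ := Set.range (fun i : ℤ => (i : ℝ) + t) ∪ Set.range fun i : ℤ => (i : ℝ) - t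

theorem bad_countable (t : ℝ) : (bad t).Countable :=
  (Set.countable_range _).union (Set.countable_range _)

theorem not_bad {t y : ℝ} (h : y ∉ bad t) (i : ℤ) : y ≠ i + t ∧ y ≠ i - t := by
  unfold bad at h
  rw [Set.mem_union, not_or] at h
  exact ⟨fun h' => h.1 ⟨i, h'.symm⟩, fun h' => h.2 ⟨i, h'.symm⟩⟩

/-- The position of the junction. -/
noncomputable def Bc.pos : Bc → ℝ
  | .dob _ ta => ta
  | _ => 0

/-- **Boxes in general position** around every point of the domain. -/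
theorem exists_box (S : CA.Dat) (bc : Bc) {x : ℂ} (hx : x ∈ S.P) :
    ∃ b : Box, b.Ok S.Q ∧ GPos S.tp bc b ∧ x ∈ H638.L.obox b := by
  obtain ⟨ε, hε, hb⟩ := Metric.isOpen_iff.1 (show IsOpen S.P from isOpen_interior) x hx
  have hB : (bad S.tp ∪ bad bc.pos).Countable := (bad_countable _).union (bad_countable _)
  obtain ⟨xl, xr, a1, a2, a3, a4, a5, a6, a7, a8, a9⟩ := pick2c hB x.re (ε := ε / 4) (by positivity)
  obtain ⟨yb, yt, b1, b2, b3, b4, b5, b6, b7, b8, b9⟩ := pick2c hB x.im (ε := ε / 4) (by positivity)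
  rw [Set.mem_union, not_or] at a8 a9 b8 b9
  refine ⟨⟨xl, xr, yb, yt⟩, ⟨by linarith, by linarith, ?_, ⟨a5, a6, a7⟩, ⟨b5, b6, b7⟩⟩, ⟨?_, ?_⟩,
    a2, a3, b2, b3⟩
  · intro a c1 c2 c3 c4
    simp only at c1 c2 c3 c4
    refine hb ?_
    rw [Metric.mem_ball, dist_eq_norm]
    refine lt_of_le_of_lt (Complex.norm_le_abs_re_add_abs_im _) ?_
    have d1 : |(⟨a.1, a.2⟩ - x : ℂ).re| ≤ ε / 4 := by
      rw [Complex.sub_re, abs_le]; constructor <;> simp only <;> linarith
    have d2 : |(⟨a.1, a.2⟩ - x : ℂ).im| ≤ ε / 4 := by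
      rw [Complex.sub_im, abs_le]; constructor <;> simp only <;> linarith
    linarith
  · intro i y hy
    simp only [Set.mem_insert_iff, Set.mem_singleton_iff] at hy
    rcases hy with rfl | rfl | rfl | rfl
    exacts [not_bad a8.1 i, not_bad a9.1 i, not_bad b8.1 i, not_bad b9.1 i]
  · cases bc with
    | free => trivial
    | wired => trivial
    | dob ia ta =>
      intro i y hy
      simp only [Set.mem_insert_iff, Set.mem_singleton_iff] at hy
      rcases hy with rfl | rfl | rfl | rfl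
      exacts [not_bad a8.2 i, not_bad a9.2 i, not_bad b8.2 i, not_bad b9.2 i]

/-! ### the output -/

/-- **The output of block 2A for the block Q-LAYER**, any outside configuration with Dobrushin
boundary conditions. -/
theorem twoA_of {θ β : ℝ} (h2 : S2aQq θ β) (hs : 0 < Real.sin θ) (hc : 0 < Real.cos θ)
    (hβ : Real.cos (θ / 2 + β) = Real.sin θ) (S : CA.Dat) {bc : Bc} (hbc : bc.In S.l)
    {L : Filter ℕ} (hL : L ≤ atTop) {η : ℕ → Cfg}
    (hη : ∀ᶠ n in L, Dob (η n) (S.D n) (qS S n) (kS S bc n)) :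
    TwoA (2 / (Real.pi - θ)) S L (GPos S.tp bc)
      (fun n f => QX.VQ θ β (qS S n) (S.D n) (kS S bc n) (η n) f) := by
  intro b hb hg φ₁ φ₂ ψ d1 d2 d3 k1 k2 k3 t1 t2 t3 j1 j2 s
  have : NeZero S.l := ⟨by have := S.poly.1; omega⟩
  have key := h2 S.l S.p S.Q S.poly S.enc S.tp S.tp0 S.tp1 bc hbc b hb hg.1 hg.2 φ₁ φ₂ ψ d1 d2 d3
    k1 k2 k3 t1 t2 t3 j1 j2 s
  refine (key.mono_left hL).congr' ?_
  filter_upwards [hη, hL (eventually_gt_atTop 0)] with n h3 hn
  have e : ∀ f, VT θ β S.p S.Q n ⌊S.tp * (n : ℝ)⌋₊ (bc.ka S.l n ⌊S.tp * (n : ℝ)⌋₊) f =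
      QX.VQ θ β (qS S n) (S.D n) (kS S bc n) (η n) f := fun f =>
    VT_eq hn S.poly S.enc hs hc hβ (Bc.ka_le hbc (tN_lt S hn)) h3 f
  simp only [e]

/-- **The output of block 2A for the family of the Dobrushin functionals.** -/
theorem twoA_bdG {θ β : ℝ} (h2 : S2aQq θ β) (h0 : 0 < θ) (h1 : θ ≤ Real.pi / 3)
    (hβ : Real.cos (θ / 2 + β) = Real.sin θ) (S : CA.Dat) {bc : Bc} (hbc : bc.In S.l)
    {L : Filter ℕ} (hL : L ≤ atTop) (hc : L.IsCountablyGenerated) {η : ℕ → Cfg}
    (hη : ∀ᶠ n in L, Dob (η n) (S.D n) (qS S n) (kS S bc n)) :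
    TwoA (2 / (Real.pi - θ)) S (bdG S θ β bc hbc L hL hc η hη).L (GPos S.tp bc)
      (fun n f => (((bdG S θ β bc hbc L hL hc η hη).famB h0 h1 hβ).Vc n fun z => (f z : ℂ)).re) := by
  have hpi := Real.pi_pos
  have key := twoA_of h2 (Real.sin_pos_of_pos_of_lt_pi h0 (by linarith))
    (Real.cos_pos_of_mem_Ioo ⟨by linarith, by linarith⟩) hβ S hbc hL hη
  have e : (fun n f =>
      (((bdG S θ β bc hbc L hL hc η hη).famB h0 h1 hβ).Vc n fun z => (f z : ℂ)).re) =
      fun n f => QX.VQ θ β (qS S n) (S.D n) (kS S bc n) (η n) f := by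
    funext n f
    show (H542.Q.VQ (2 * Real.cos θ) (S.D n) (η n) (H542.Q.thB θ β (qS S n) (S.D n) (kS S bc n))
      (qS S n 0) fun z => (f z : ℂ)).re = _
    rw [H542.Q.VQ_XB hβ, Complex.ofReal_re]
    rfl
  rw [e]
  exact key

/-- **The output of block 2A for the family of the Dobrushin functionals.** -/
theorem twoA_bdQ {θ β : ℝ} (h2 : S2aQq θ β) (h0 : 0 < θ) (h1 : θ ≤ Real.pi / 3)
    (hβ : Real.cos (θ / 2 + β) = Real.sin θ) (S : CA.Dat) {bc : Bc} (hbc : bc.In S.l)
    {L : Filter ℕ} (hL : L ≤ atTop) (hc : L.IsCountablyGenerated) :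
    TwoA (2 / (Real.pi - θ)) S (bdQ S θ β bc hbc L hL hc).L (GPos S.tp bc)
      (fun n f => (((bdQ S θ β bc hbc L hL hc).famB h0 h1 hβ).Vc n fun z => (f z : ℂ)).re) :=
  twoA_bdG h2 h0 h1 hβ S hbc hL hc (hL (dob_qS S bc))

end Vale.Agent.P167.H825.Q
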