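import Vale.Agent.P167.H825.Q.FinQ
import Vale.Agent.P167.H592.T.FamC

/-!
# P167, general `q`, block 2A: the output from `HOSp` and `STARTp`
-/

namespace Vale.Agent.P167.H825.Q

open Finset Filter Topology MeasureTheory
open Vale.Agent.P167.H519 (IsLim)

/-- The geometry of the frames (helper592's `fam_PT`). -/
theorem famq {θ β : ℝ} (hθ : 0 < θ) (hθ' : θ ≤ Real.pi / 3)
    (hβ : β = (θ - Real.pi) / 2 ∨ β = (Real.pi - 3 * θ) / 2) (Zr : ℕ → Row → ℝ) :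
    FAMq θ β Zr := by
  intro l _ p S₀ hp hD tp h0 h1 bc hbc b hb ht hg
  exact Enl.fam_PT hp hD hb h0 h1 ht (hbc.ok hg) hθ (by linarith) hβ Zr

/-- **The output of block 2A** for the random cluster measure `P` of the plane with
`√q = 2 cos θ`, `1 ≤ q < 4`, from the bounds `HOSp` and `STARTp` for the thick walls. -/
theorem s2aQq_fin {θ β : ℝ} (hθ0 : 0 < θ) (hθ1 : θ ≤ Real.pi / 3)
    (hβ : β = (θ - Real.pi) / 2 ∨ β = (Real.pi - 3 * θ) / 2) {P : Measure Cfg}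
    (hP : IsLim (2 * Real.cos θ) P) {Zr : ℕ → Row → ℝ}
    (hpos : ∀ {κ : ℝ}, 0 < κ → ∀ᶠ n : ℕ in atTop, ∀ r : Row, r.Ok θ κ n → 0 < Zr n r)
    (hH : HOSp θ P Zr) (hS : STARTp θ β P Zr) : S2aQq θ β :=
  s2aQq_main hθ0 hθ1 hP hpos hH hS (famq hθ0 hθ1 hβ Zr)

end Vale.Agent.P167.H825.Q
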