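import Vale.Agent.P167.H825.Q.FrmP
import Vale.Agent.P167.H592.T.Row2
import Vale.Agent.P167.QX.Hole

/-!
# P167, general `q`, block 2A: the phases of the frame on the sides of the polygon

With the flow `0` the phases of the frame `PT` on the inner halves of the sides are
`θ / 4 * u k + stag k` (fields `hd`, `tl`, `off` of `QX.Frame`).
-/

namespace Vale.Agent.P167.H825.Q

open Finset
open Vale.Agent.P167.A (plane plane_sg)
open Vale.Agent.P167.XDL (bS mem_bS)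
open Vale.Agent.P167.H680.T (WallG thk mem_bS_sq sgb)
open Vale.Agent.P167.FK (Good)
open Vale.Agent.P167.H825 (pdir ptau Marks rnd bsite enl)
open Vale.Agent.P167.E6 (IsPolygon Encloses dir face)
open Vale.Agent.P167.BR (be be_even be_odd)
open Vale.Agent.P167.Enl (kOf uN sW eW tB kOf_div kOf_lt ptau_l tB_lt lt_n qN Rows mem_rowP
  frm mem_frm be_vp vp ip_in op_out exists_kOf isPolygon_qN encloses_qN sg_hb)
open Vale.Agent.P167.H199 (ah at' hb)

variable {l : ℕ} {p : ZMod l → ℤ × ℤ} {n t m : ℕ} {S₀ : Finset (ℤ × ℤ)} {θ β : ℝ} {Q : Marks}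
  {d : ℕ} {bc : Bc} {Zr : ℕ → Row → ℝ} {c : Ed → ℝ}

/-! ### halves of an edge -/

theorem sq_hb (e : Ed) : H680.T.sq e (hb plane e) = hdv e ∧ H680.T.sq e (!hb plane e) = tlv e := by
  unfold hb
  rw [plane_sg]
  rcases e with v | v <;> by_cases h : Even (v.1 + v.2) <;> simp [hdv, tlv, H680.T.sq, sg, h]

theorem sgb_hb (e : Ed) : sgb (hb plane e) * plane.sg e = 1 ∧ sgb (!hb plane e) * plane.sg e = -1 := by
  rw [sg_hb]
  unfold sgb
  cases hb plane e <;> simp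

theorem sg_sg (e : Ed) : (sg e : ℝ) * plane.sg e = 1 := by
  rw [← plane_sg, sg_hb]
  cases hb plane e <;> simp

/-! ### the rows of the frame -/

/-- The rows of the frame. -/
def RowsP (p : ZMod l → ℤ × ℤ) (Q : Marks) (n d m : ℕ) : Prop :=
  Rows l n m (fun x : Fin l × Fin (Q.m + 1) => (x.1 : ℕ)) (fun x => sW p n Q d x.1 x.2)
    (fun x => eW p n Q d x.1 x.2)

/-- The squares of the frame. -/
noncomputable def frmP (p : ZMod l → ℤ × ℤ) (Q : Marks) (n d : ℕ) : Finset (ℤ × ℤ) :=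
  frm p n (fun x : Fin l × Fin (Q.m + 1) => (x.1 : ℕ)) (fun x => sW p n Q d x.1 x.2)
    (fun x => eW p n Q d x.1 x.2)

theorem frow_I (i j : ℕ) : (frow θ β p Q n d bc i j).I =
    Enl.rowP p n i (sW p n Q d i j) (eW p n Q d i j) := by
  ext v
  rw [mem_frow, mem_rowP]
  rfl

theorem PT_w (x : Fin l × Fin (Q.m + 1)) : (PT θ β p Q n d bc Zr c).w x =
    (frow θ β p Q n d bc x.1 x.2).wall θ (Zr n (frow θ β p Q n d bc x.1 x.2)) := rfl

/-- The cut edges of the frame. -/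
theorem PT_S (h : RowsP p Q n d m) (hp : IsPolygon p) (hm : 4 ≤ m) :
    (PT θ β p Q n d bc Zr c).S = bS (frmP p Q n d) := by
  unfold frmP
  rw [h.bS_frm hp hm]
  unfold H680.T.WCG.S
  refine biUnion_congr rfl fun x _ => ?_
  show bS (frow θ β p Q n d bc x.1 x.2).I = _
  rw [frow_I]

/-- The phases off the frame. -/
theorem PT_off (h : RowsP p Q n d m) (hp : IsPolygon p) (hm : 4 ≤ m) {e : Ed}
    (he : e ∉ bS (frmP p Q n d)) (b : Bool) : (PT θ β p Q n d bc Zr 0).ph e b = 0 := by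
  rw [H680.T.ph_off]
  · rfl
  · rwa [PT_S h hp hm]
  · rfl

/-- The phases at the side of a step of the frame. -/
theorem PT_on (h : RowsP p Q n d m) (hp : IsPolygon p) (hD : Encloses p S₀) (hQ : Q.Ok)
    (hb' : bc.Ok l Q) (hd : 1 ≤ d) (hm : 4 ≤ m) (x : Fin l × Fin (Q.m + 1)) {σ : ℕ}
    (h1 : sW p n Q d x.1 x.2 ≤ σ) (h2 : σ < eW p n Q d x.1 x.2) {b : Bool}
    (hb1 : H680.T.sq (be (qN p n (tB n Q)) ((kOf l n (tB n Q) x.1 σ : ℕ) : ZMod (l * n))) (!b) ∉
      enl S₀ n) :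
    (PT θ β p Q n d bc Zr 0).ph
      (be (qN p n (tB n Q)) ((kOf l n (tB n Q) x.1 σ : ℕ) : ZMod (l * n))) b =
      sgb b * stΦ θ β (uN p n (tB n Q)) (bc.ka l n (tB n Q)) (kOf l n (tB n Q) x.1 σ) +
        (sg (be (qN p n (tB n Q)) ((kOf l n (tB n Q) x.1 σ : ℕ) : ZMod (l * n))) : ℝ) *
          stτ (bc.ka l n (tB n Q)) (kOf l n (tB n Q) x.1 σ) * ((3 * θ - Real.pi) / 4) := by
  have hσ := lt_n hQ hd (Nat.lt_succ_iff.1 x.2.isLt) h1 h2
  have ht := tB_lt (n := n) hQ (by omega)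
  set k := kOf l n (tB n Q) x.1 σ
  set g := be (qN p n (tB n Q)) (k : ZMod (l * n)) with hg
  have e1 : g = BR.ce (vp p n x.1 σ) (pdir p x.1) := be_vp hp x.1.isLt ht hσ
  have hin := ip_in hp hD x.1.isLt hσ
  have hout := op_out hp hD x.1.isLt hσ
  have htwo : Enl.Two g (face (vp p n x.1 σ) (pdir p x.1)) (Enl.op p n x.1 σ) := by
    rw [e1]
    exact Enl.two_ce _ _
  -- the outer square
  have e2 : H680.T.sq g (!b) = Enl.op p n x.1 σ := by
    obtain ⟨k1, k2⟩ := sq_hb g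
    rcases htwo with ⟨k3, k4⟩ | ⟨k3, k4⟩
    · by_cases hbb : b = hb plane g
      · rw [hbb, k2, k4]
      · have : (!b) = hb plane g := by
          cases b <;> cases h' : hb plane g <;> simp_all
        rw [this, k1, k3] at hb1
        exact absurd hin hb1
    · by_cases hbb : b = hb plane g
      · rw [hbb, k2, k4] at hb1
        exact absurd hin hb1
      · have : (!b) = hb plane g := by
          cases b <;> cases h' : hb plane g <;> simp_all
        rw [this, k1, k3]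
  have e3 : H680.T.sq g b ∈ enl S₀ n := by
    obtain ⟨k1, k2⟩ := sq_hb g
    rcases htwo with ⟨k3, k4⟩ | ⟨k3, k4⟩
    · by_cases hbb : b = hb plane g
      · rw [hbb, k1, k3]
        exact hin
      · have : (!b) = hb plane g := by
          cases b <;> cases h' : hb plane g <;> simp_all
        rw [this, k1, k3] at hb1
        exact absurd hin hb1
    · by_cases hbb : b = hb plane g
      · rw [hbb, k2, k4] at hb1
        exact absurd hin hb1
      · have h3 : b = !hb plane g := by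
          cases b <;> cases h' : hb plane g <;> simp_all
        rw [h3, k2, k4]
        exact hin
  have hdisj := h.disj hp hD
  rw [Finset.disjoint_left] at hdisj
  have e4 : H680.T.sq g b ∉ (frow θ β p Q n d bc x.1 x.2).I := by
    rw [frow_I]
    exact fun h' => hdisj e3 (mem_biUnion.2 ⟨x, mem_univ _, h'⟩)
  have e5 : g ∈ bS (frow θ β p Q n d bc x.1 x.2).I := by
    rw [frow_I]
    exact (h.be_mem hp hD hm ht x.1.isLt hσ).2 ⟨rfl, h1, h2⟩
  show ∑ y, ((PT θ β p Q n d bc Zr 0).w y).a g b + (0 : ℝ) / 2 = _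
  rw [zero_div, add_zero, sum_eq_single_of_mem x (mem_univ _)]
  · show (if g ∈ bS (frow θ β p Q n d bc x.1 x.2).I then
      (if H680.T.sq g b ∈ (frow θ β p Q n d bc x.1 x.2).I then 0 else
        sgb b * (frow θ β p Q n d bc x.1 x.2).Φ (H680.T.sq g (!b)) +
          (sg g : ℝ) * (frow θ β p Q n d bc x.1 x.2).τ (H680.T.sq g (!b)) * ((3 * θ - Real.pi) / 4))
        else 0) = _
    rw [if_pos e5, if_neg e4, e2]
    have e6 := frow_Φ (θ := θ) (β := β) hp hD hQ hb' hd x.1.isLt (Nat.lt_succ_iff.1 x.2.isLt) h1 h2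
    have e7 := frow_τ (θ := θ) (β := β) hp hD hQ hb' hd x.1.isLt (Nat.lt_succ_iff.1 x.2.isLt) h1 h2
    have e8 : osq ((n : ℤ) • p ((x.1 : ℕ) : ZMod l)) (pdir p x.1) σ = Enl.op p n x.1 σ := rfl
    rw [← e8, e6, e7]
  · intro y _ hy
    have h3 : g ∉ ((PT θ β p Q n d bc Zr 0).w y).S := by
      show g ∉ bS (frow θ β p Q n d bc y.1 y.2).I
      rw [frow_I]
      intro h'
      obtain ⟨k1, k2, k3⟩ := (h.be_mem (x := y) hp hD hm ht x.1.isLt hσ).1 h'
      have h4 := h.dis x y hy.symm k1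
      change eW p n Q d x.1 x.2 + m ≤ sW p n Q d y.1 y.2 ∨
        eW p n Q d y.1 y.2 + m ≤ sW p n Q d x.1 x.2 at h4
      change sW p n Q d y.1 y.2 ≤ σ at k2
      change σ < eW p n Q d y.1 y.2 at k3
      omega
    rw [((PT θ β p Q n d bc Zr 0).w y).off g h3]
    rfl

/-- The steps in the frame. -/
theorem be_frm (h : RowsP p Q n d m) (hp : IsPolygon p) (hD : Encloses p S₀) (hQ : Q.Ok)
    (hm : 4 ≤ m) (hn : 0 < n) {k : ℕ} (hk : k < l * n)
    (hb1 : be (qN p n (tB n Q)) (k : ZMod (l * n)) ∈ bS (frmP p Q n d)) :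
    ∃ (x : Fin l × Fin (Q.m + 1)) (σ : ℕ), sW p n Q d x.1 x.2 ≤ σ ∧ σ < eW p n Q d x.1 x.2 ∧
      k = kOf l n (tB n Q) x.1 σ := by
  have ht := tB_lt (n := n) hQ hn
  obtain ⟨i, σ, hi, hσ, rfl⟩ := exists_kOf ht hk
  unfold frmP at hb1
  rw [h.bS_frm hp hm, mem_biUnion] at hb1
  obtain ⟨x, -, hx⟩ := hb1
  obtain ⟨k1, k2, k3⟩ := (h.be_mem hp hD hm ht hi hσ).1 hx
  exact ⟨x, σ, k2, k3, by rw [k1]⟩

/-- **The phase at the head side** (field `hd` of `QX.Frame`). -/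
theorem PT_hd (h : RowsP p Q n d m) (hp : IsPolygon p) (hD : Encloses p S₀) (hQ : Q.Ok)
    (hb' : bc.Ok l Q) (hd : 1 ≤ d) (hm : 4 ≤ m) (hn : 0 < n) {k : ℕ} (hk : k < l * n)
    (hb1 : be (qN p n (tB n Q)) (k : ZMod (l * n)) ∈ bS (frmP p Q n d))
    (hh : hdv (be (qN p n (tB n Q)) (k : ZMod (l * n))) ∈ enl S₀ n) :
    ah plane (PT θ β p Q n d bc Zr 0).ph (be (qN p n (tB n Q)) (k : ZMod (l * n))) =
      θ / 4 * uN p n (tB n Q) k +
        QX.stag θ β (qN p n (tB n Q)) (bc.ka l n (tB n Q)) k + 0 := by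
  have hq := isPolygon_qN hn hp (tB n Q)
  have hE := encloses_qN hn hp hD (tB n Q)
  obtain ⟨x, σ, h1, h2, hkx⟩ := be_frm h hp hD hQ hm hn hk hb1
  have hev : Even ((qN p n (tB n Q) (k : ZMod (l * n))).1 +
      (qN p n (tB n Q) (k : ZMod (l * n))).2) := by
    by_contra hne
    exact (be_odd hq hE hne).2.2.2 hh
  have htl : tlv (be (qN p n (tB n Q)) (k : ZMod (l * n))) ∉ enl S₀ n :=
    (be_even hq hE hev).2.2.2
  unfold ah
  have h3 : H680.T.sq (be (qN p n (tB n Q)) (k : ZMod (l * n)))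
      (!hb plane (be (qN p n (tB n Q)) (k : ZMod (l * n)))) ∉ enl S₀ n := by
    rw [(sq_hb _).2]
    exact htl
  have h4 := PT_on (θ := θ) (β := β) (Zr := Zr) h hp hD hQ hb' hd hm x h1 h2
    (b := hb plane (be (qN p n (tB n Q)) (k : ZMod (l * n)))) (by rw [← hkx]; exact h3)
  rw [← hkx] at h4
  rw [h4]
  have e1 := (sgb_hb (be (qN p n (tB n Q)) (k : ZMod (l * n)))).1
  have e2 := sg_sg (be (qN p n (tB n Q)) (k : ZMod (l * n)))
  have e3 : stΦ θ β (uN p n (tB n Q)) (bc.ka l n (tB n Q)) k +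
      stτ (bc.ka l n (tB n Q)) k * ((3 * θ - Real.pi) / 4) = θ / 4 * uN p n (tB n Q) k +
        QX.stag θ β (qN p n (tB n Q)) (bc.ka l n (tB n Q)) k + 0 := by
    unfold stΦ stτ QX.stag
    by_cases hkk : k < bc.ka l n (tB n Q)
    · rw [if_pos hkk, if_pos hkk, if_pos hkk, if_pos hev]
      ring
    · rw [if_neg hkk, if_neg hkk, if_neg hkk, if_pos hev]
      ring
  rw [← e3]
  linear_combination (stΦ θ β (uN p n (tB n Q)) (bc.ka l n (tB n Q)) k) * e1 +
    (stτ (bc.ka l n (tB n Q)) k * ((3 * θ - Real.pi) / 4)) * e2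

/-- **The phase at the tail side** (field `tl` of `QX.Frame`). -/
theorem PT_tl (h : RowsP p Q n d m) (hp : IsPolygon p) (hD : Encloses p S₀) (hQ : Q.Ok)
    (hb' : bc.Ok l Q) (hd : 1 ≤ d) (hm : 4 ≤ m) (hn : 0 < n) {k : ℕ} (hk : k < l * n)
    (hb1 : be (qN p n (tB n Q)) (k : ZMod (l * n)) ∈ bS (frmP p Q n d))
    (hh : tlv (be (qN p n (tB n Q)) (k : ZMod (l * n))) ∈ enl S₀ n) :
    at' plane (PT θ β p Q n d bc Zr 0).ph (be (qN p n (tB n Q)) (k : ZMod (l * n))) =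
      -(θ / 4 * uN p n (tB n Q) k +
        QX.stag θ β (qN p n (tB n Q)) (bc.ka l n (tB n Q)) k + 0) := by
  have hq := isPolygon_qN hn hp (tB n Q)
  have hE := encloses_qN hn hp hD (tB n Q)
  obtain ⟨x, σ, h1, h2, hkx⟩ := be_frm h hp hD hQ hm hn hk hb1
  have hev : ¬ Even ((qN p n (tB n Q) (k : ZMod (l * n))).1 +
      (qN p n (tB n Q) (k : ZMod (l * n))).2) := by
    intro hne
    exact (be_even hq hE hne).2.2.2 hh
  have htl : hdv (be (qN p n (tB n Q)) (k : ZMod (l * n))) ∉ enl S₀ n :=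
    (be_odd hq hE hev).2.2.2
  unfold at'
  have h3 : H680.T.sq (be (qN p n (tB n Q)) (k : ZMod (l * n)))
      (!!hb plane (be (qN p n (tB n Q)) (k : ZMod (l * n)))) ∉ enl S₀ n := by
    rw [Bool.not_not, (sq_hb _).1]
    exact htl
  have h4 := PT_on (θ := θ) (β := β) (Zr := Zr) h hp hD hQ hb' hd hm x h1 h2
    (b := !hb plane (be (qN p n (tB n Q)) (k : ZMod (l * n)))) (by rw [← hkx]; exact h3)
  rw [← hkx] at h4
  rw [h4]
  have e1 := (sgb_hb (be (qN p n (tB n Q)) (k : ZMod (l * n)))).2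
  have e2 := sg_sg (be (qN p n (tB n Q)) (k : ZMod (l * n)))
  have e3 : stΦ θ β (uN p n (tB n Q)) (bc.ka l n (tB n Q)) k -
      stτ (bc.ka l n (tB n Q)) k * ((3 * θ - Real.pi) / 4) = θ / 4 * uN p n (tB n Q) k +
        QX.stag θ β (qN p n (tB n Q)) (bc.ka l n (tB n Q)) k + 0 := by
    unfold stΦ stτ QX.stag
    by_cases hkk : k < bc.ka l n (tB n Q)
    · rw [if_pos hkk, if_pos hkk, if_pos hkk, if_neg hev]
      ring
    · rw [if_neg hkk, if_neg hkk, if_neg hkk, if_neg hev]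
      ring
  rw [← e3]
  linear_combination (stΦ θ β (uN p n (tB n Q)) (bc.ka l n (tB n Q)) k) * e1 +
    (stτ (bc.ka l n (tB n Q)) k * ((3 * θ - Real.pi) / 4)) * e2

/-- **The frame `PT` is a frame of 944's form**; the goodness of `ω`, the holes and the support of
the flow are left. -/
theorem PT_frame (h : RowsP p Q n d m) (hp : IsPolygon p) (hD : Encloses p S₀) (hQ : Q.Ok)
    (hb' : bc.Ok l Q) (hd : 1 ≤ d) (hm : 4 ≤ m) (hn : 0 < n) {B : Set (ℤ × ℤ)} {ω : Cfg}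
    (good : Good ω) (hole : ∀ e ∈ bS (enl S₀ n), e ∉ bS (frmP p Q n d) → hdv e ∈ B)
    (far : ∀ e, QX.Vis B ω e → c e = 0)
    (sup : ∀ e, c e ≠ 0 → hdv e ∈ enl S₀ n ∧ tlv e ∈ enl S₀ n) :
    QX.Frame θ (qN p n (tB n Q)) (enl S₀ n) (frmP p Q n d) (uN p n (tB n Q))
      (QX.stag θ β (qN p n (tB n Q)) (bc.ka l n (tB n Q))) (PT θ β p Q n d bc Zr 0).ph c 0 B ω where
  good := good
  disj := h.disj hp hD
  hole := hole
  far := far
  sup := sup
  off _ he b := PT_off h hp hm he b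
  hd _ hk h1 h2 := PT_hd h hp hD hQ hb' hd hm hn hk h1 h2
  tl _ hk h1 h2 := PT_tl h hp hD hQ hb' hd hm hn hk h1 h2

/-- The phases of the frame with the flow `c`. -/
theorem PT_ph : (PT θ β p Q n d bc Zr c).ph = QX.aF (PT θ β p Q n d bc Zr 0).ph c := by
  funext e b
  show ∑ y, ((PT θ β p Q n d bc Zr c).w y).a e b + c e / 2 =
    ∑ y, ((PT θ β p Q n d bc Zr 0).w y).a e b + (0 : ℝ) / 2 + c e / 2
  rw [zero_div, add_zero]
  rfl

end Vale.Agent.P167.H825.Q
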