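import Vale.Agent.P167.H825.Q.FrmH
import Vale.Agent.P167.H680.T.Fin
import Vale.Agent.P167.H592.QK1
import Vale.Agent.P167.H199.PwReg
import Vale.Agent.P167.QX.Main

/-!
# P167, general `q`, block 2A: START, the geometry of the frames and the output of the block

* `STARTp θ β P Zr`: the cut functionals of the frames `PT` of the polygons in the random cluster
  measure `P` of the plane.
* `FAMq θ β Zr`: the frames are families of walls of the class `clR θ Zr`.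
* `S2aQq θ β`: the output of block 2A.
* `HOSp θ P Zr`: upper bound for the cut functionals of the walls of the class `clR θ Zr`.
* `s2aQq_of`: the output from `HOSp`, `STARTp` and `FAMq`.
-/

namespace Vale.Agent.P167.H825.Q

open Finset Filter Topology MeasureTheory
open Vale.Agent.P167.H592
open Vale.Agent.P167.H680.T (WCG WallG Fc Fam HOSQ StartV fc_zero)
open Vale.Agent.P167.H825 (dvg Box dv FlowIn enl domP lapl Marks pdir epos)
open Vale.Agent.P167.H199 (mks reg)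
open Vale.Agent.P167.H680.Q (alpq CentreQ)
open Vale.Agent.P167.E6 (IsPolygon Encloses)
open Vale.Agent.P167.Enl (tB)
open Vale.Agent.P167.QX (XcQ)

/-! ### general position of the junction -/

/-- The junction is inside of a side, not the side of the base site. -/
def Bc.In (l : ℕ) : Bc → Prop
  | .dob ia ta => 0 < ia ∧ ia < l ∧ 0 < ta ∧ ta < 1
  | _ => True

/-- The junction is not on the lines of the box. -/
def Bc.Gp (b : Box) : Bc → Prop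
  | .dob _ ta => ∀ i : ℤ, ∀ y ∈ ({b.xl, b.xr, b.yb, b.yt} : Set ℝ), y ≠ i + ta ∧ y ≠ i - ta
  | _ => True

/-! ### statements -/

/-- The value of the cut functional of a configuration of walls. -/
noncomputable def WX {ι : Type} [Fintype ι] (θ : ℝ) (P : Measure Cfg) (W : WCG ι) : ℝ :=
  ∫ ω, XcQ θ W.S W.ph ω ∂P

/-- **START**: for all flows `c` in the domain the value of the frame with the flow is the value of
the frame times `V (dv c)`, up to a small relative error, for a suitable size of the holes; the value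
of the frame is of the order of the product of the labels. -/
def STARTp (θ β : ℝ) (P : Measure Cfg) (Zr : ℕ → Row → ℝ) : Prop :=
  ∀ (l : ℕ) [NeZero l] (p : ZMod l → ℤ × ℤ) (S₀ : Finset (ℤ × ℤ)), IsPolygon p → Encloses p S₀ →
  ∀ Q : Marks, Q.Ok → ∀ bc : Bc, bc.Ok l Q → ∀ (κ B : ℝ), 0 < κ → ∀ ε : ℝ, 0 < ε →
  ∃ δ₀ : ℝ, 0 < δ₀ ∧ ∀ δ : ℝ, 0 < δ → δ < δ₀ → ∃ c₀ : ℝ, 0 < c₀ ∧ ∀ᶠ n : ℕ in atTop,
    c₀ * ∏ x : Fin l × Fin (Q.m + 1), Zr n (frow θ β p Q n ⌊δ * (n : ℝ)⌋₊ bc x.1 x.2) ≤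
      WX θ P (PT θ β p Q n ⌊δ * (n : ℝ)⌋₊ bc Zr 0) ∧
    ∀ c : Ed → ℝ, Fc (PT θ β p Q n ⌊δ * (n : ℝ)⌋₊ bc Zr c) → FlowIn (enl S₀ n) κ B n c →
      |WX θ P (PT θ β p Q n ⌊δ * (n : ℝ)⌋₊ bc Zr c) -
        WX θ P (PT θ β p Q n ⌊δ * (n : ℝ)⌋₊ bc Zr 0) *
          VT θ β p S₀ n (tB n Q) (bc.ka l n (tB n Q)) (dv c)| ≤
        ε * WX θ P (PT θ β p Q n ⌊δ * (n : ℝ)⌋₊ bc Zr 0)

/-- **HOS**: upper bound for the values of the configurations with at most `M` thick walls. -/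
def HOSp (θ : ℝ) (P : Measure Cfg) (Zr : ℕ → Row → ℝ) : Prop :=
  ∀ (κ R B : ℝ) (M : ℕ), 0 < κ → ∃ C : ℝ, 0 < C ∧ ∀ᶠ n : ℕ in atTop,
    ∀ (ι : Type) [Fintype ι] (W : WCG ι), Fc W → Fintype.card ι ≤ M → W.Adm κ R B n →
      W.In (clR θ Zr) κ n → |WX θ P W| ≤ C * W.Z (clR θ Zr) n

/-- **Geometry of the frames**: for small holes the rows of the frame are a family of walls. -/
def FAMq (θ β : ℝ) (Zr : ℕ → Row → ℝ) : Prop :=
  ∀ (l : ℕ) [NeZero l] (p : ZMod l → ℤ × ℤ) (S₀ : Finset (ℤ × ℤ)), IsPolygon p → Encloses p S₀ →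
  ∀ tp : ℝ, 0 < tp → tp < 1 → ∀ bc : Bc, bc.In l → ∀ b : Box, b.Ok S₀ →
  (∀ i : ℤ, ∀ y ∈ ({b.xl, b.xr, b.yb, b.yt} : Set ℝ), y ≠ i + tp ∧ y ≠ i - tp) → bc.Gp b →
  ∃ δ₀ : ℝ, 0 < δ₀ ∧ ∀ δ : ℝ, 0 < δ → δ < δ₀ →
    Fam (clR θ Zr) S₀ b (fun x : Fin l × Fin ((mks p b tp).m + 1) => reg p b x.1 x.2)
      (fun n => (PT θ β p (mks p b tp) n ⌊δ * (n : ℝ)⌋₊ bc Zr 0).w)

/-- **Output of block 2A**, `q ≥ 1`: for flows `φ` which vanish near the lines of the pinwheel of a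
box and all `ψ` supported in the box. The base site is at the position `tp` of the side `0`. -/
def S2aQq (θ β : ℝ) : Prop :=
  ∀ (l : ℕ) [NeZero l] (p : ZMod l → ℤ × ℤ) (S₀ : Finset (ℤ × ℤ)), IsPolygon p → Encloses p S₀ →
  ∀ (tp : ℝ), 0 < tp → tp < 1 → ∀ bc : Bc, bc.In l → ∀ b : Box, b.Ok S₀ →
  (∀ i : ℤ, ∀ y ∈ ({b.xl, b.xr, b.yb, b.yt} : Set ℝ), y ≠ i + tp ∧ y ≠ i - tp) → bc.Gp b →
  ∀ φ₁ φ₂ ψ : ℝ × ℝ → ℝ, ContDiff ℝ ((⊤ : ℕ∞) : WithTop ℕ∞) φ₁ →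
    ContDiff ℝ ((⊤ : ℕ∞) : WithTop ℕ∞) φ₂ → ContDiff ℝ ((⊤ : ℕ∞) : WithTop ℕ∞) ψ →
    HasCompactSupport φ₁ → HasCompactSupport φ₂ → HasCompactSupport ψ →
    tsupport φ₁ ⊆ domP S₀ → tsupport φ₂ ⊆ domP S₀ →
    tsupport ψ ⊆ {x | b.xl < x.1 ∧ x.1 < b.xr ∧ b.yb < x.2 ∧ x.2 < b.yt} →
    Disjoint (tsupport φ₁) b.lines → Disjoint (tsupport φ₂) b.lines →
  ∀ s : ℝ, Tendsto (fun n : ℕ =>
      VT θ β p S₀ n ⌊tp * (n : ℝ)⌋₊ (bc.ka l n ⌊tp * (n : ℝ)⌋₊)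
        (H638.cm (fun x => dvg φ₁ φ₂ x + s * lapl ψ x) (1 / n)) -
      alpq (2 / (Real.pi - θ)) (dvg φ₁ φ₂) ψ s *
      VT θ β p S₀ n ⌊tp * (n : ℝ)⌋₊ (bc.ka l n ⌊tp * (n : ℝ)⌋₊)
        (H638.cm (dvg φ₁ φ₂) (1 / n))) atTop (𝓝 0)

/-! ### the functional `VT` -/

section VT

variable {N : ℕ} {q : ZMod N → ℤ × ℤ} {D : Finset (ℤ × ℤ)} {θ β : ℝ} {k : ℕ} {η : Cfg}

theorem ZQ_zero_pos (hq : IsPolygon q) (hD : Encloses q D) (hs : 0 < Real.sin θ)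
    (hc : 0 < Real.cos θ) (hβ : Real.cos (θ / 2 + β) = Real.sin θ) :
    0 < QX.ZQ θ q D (QX.stag θ β q k) 0 := by
  classical
  unfold QX.ZQ
  refine sum_pos (fun S _ => ?_) ⟨∅, empty_mem_powerset D⟩
  rw [QX.XQ_stag hq hD hs.ne' hc.ne', QX.XB_zero hs.ne' hc.ne' hβ, mul_one]
  refine mul_pos (pow_pos (by linarith) _) (prod_pos fun A _ => ?_)
  split_ifs
  · linarith
  · exact one_pos

variable {l : ℕ} {p : ZMod l → ℤ × ℤ} {S₀ : Finset (ℤ × ℤ)} {n t : ℕ}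

/-- The functional is the expectation in the random cluster model with Dobrushin boundary
conditions. -/
theorem VT_eq (hn : 0 < n) (hp : IsPolygon p) (hD : Encloses p S₀) (hs : 0 < Real.sin θ)
    (hc : 0 < Real.cos θ) (hβ : Real.cos (θ / 2 + β) = Real.sin θ) (hk : k ≤ l * n)
    (hη : H718.Dob η (enl S₀ n) (Enl.qN p n t) k) (f : ℤ × ℤ → ℝ) :
    VT θ β p S₀ n t k f = QX.VQ θ β (Enl.qN p n t) (enl S₀ n) k η f := by
  have hq := Enl.isPolygon_qN hn hp t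
  have hE := Enl.encloses_qN hn hp hD t
  unfold VT QX.VQ
  rw [QX.ZQ_stag hq hE hs.ne' hc hβ hk hη f]
  rw [mul_comm, mul_div_assoc, div_self (ZQ_zero_pos hq hE hs hc hβ).ne', mul_one]

end VT

/-! ### the functional of the insertions -/

/-- The value of the insertion of a configuration of walls. -/
theorem om_insW {θ : ℝ} {P : Measure Cfg} {om : Ins → ℂ} (h : OmQ θ P om) {ι : Type} [Fintype ι]
    (W : WCG ι) (hc : Fc W) : om (H680.T.insW W hc).1 = (WX θ P W : ℂ) := by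
  classical
  set E : Finset Ed := W.S ∪ Set.Finite.toFinset hc with hE
  have hoff : ∀ e ∉ E, W.ph e = 0 := by
    intro e he
    rw [hE, mem_union, not_or] at he
    refine H680.T.ph_off he.1 ?_
    by_contra hne
    exact he.2 ((Set.Finite.mem_toFinset _).2 hne)
  have e1 : (H680.T.insW W hc).1 = ⟨W.S, H199.phF E W.ph⟩ := by
    show (⟨W.S, fun ω => H199.phO W.ph ω⟩ : Ins) = ⟨W.S, H199.phF E W.ph⟩
    congr 1
    funext ω
    unfold H199.phO H199.phF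
    rw [H199.exO_eq hoff]
  rw [e1, h.ph W.S E W.ph subset_union_left fun e he b => by rw [hoff e he]; rfl]
  rfl

/-- HOS for the functional of the insertions. -/
theorem hosQ_of {θ : ℝ} {P : Measure Cfg} {om : Ins → ℂ} (h : OmQ θ P om) {Zr : ℕ → Row → ℝ}
    (hH : HOSp θ P Zr) : HOSQ om (clR θ Zr) := by
  intro κ R B M hκ
  obtain ⟨C, hC, hev⟩ := hH κ R B M hκ
  refine ⟨C, hC, ?_⟩
  filter_upwards [hev] with n hn ι _ W hc h1 h2 h3
  rw [om_insW h W hc, Complex.norm_real]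
  exact hn ι W hc h1 h2 h3

/-! ### the output -/

theorem Bc.In.ok {l : ℕ} {p : ZMod l → ℤ × ℤ} {b : Box} {tp : ℝ} {bc : Bc} (h : bc.In l)
    (hg : bc.Gp b) : bc.Ok l (mks p b tp) := by
  cases bc with
  | free => trivial
  | wired => trivial
  | dob ia ta =>
    obtain ⟨h1, h2, h3, h4⟩ := h
    refine ⟨h1, h2, h3, h4, fun j => ?_⟩
    have ha : H199.fr (pdir p ia) (H199.lna b (pdir p ia)) ≠ ta := by
      refine H199.fr_ne_tp (fun i => hg i _ ?_) _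
      unfold H199.lna
      split_ifs <;> simp
    have hb : H199.fr (pdir p ia) (H199.lnb b (pdir p ia)) ≠ ta := by
      refine H199.fr_ne_tp (fun i => hg i _ ?_) _
      unfold H199.lnb
      split_ifs <;> simp
    show H199.mth b (pdir p ia) j ≠ ta
    unfold H199.mth
    split_ifs
    · exact h3.ne
    · rcases min_choice (H199.fr (pdir p ia) (H199.lna b (pdir p ia)))
        (H199.fr (pdir p ia) (H199.lnb b (pdir p ia))) with hh | hh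
      · rw [hh]; exact ha
      · rw [hh]; exact hb
    · rcases max_choice (H199.fr (pdir p ia) (H199.lna b (pdir p ia)))
        (H199.fr (pdir p ia) (H199.lnb b (pdir p ia))) with hh | hh
      · rw [hh]; exact ha
      · rw [hh]; exact hb
    · exact h4.ne'

/-- **START for the abstract theorem.** -/
theorem startV_of {θ β : ℝ} {P : Measure Cfg} {om : Ins → ℂ} (hom : OmQ θ P om)
    {Zr : ℕ → Row → ℝ} (hS : STARTp θ β P Zr) (hF : FAMq θ β Zr) {l : ℕ} [NeZero l]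
    {p : ZMod l → ℤ × ℤ} {S₀ : Finset (ℤ × ℤ)} (hp : IsPolygon p) (hD : Encloses p S₀) {tp : ℝ}
    (h0 : 0 < tp) (h1 : tp < 1) {bc : Bc} (hbc : bc.In l) {b : Box} (hb : b.Ok S₀)
    (ht : ∀ i : ℤ, ∀ y ∈ ({b.xl, b.xr, b.yb, b.yt} : Set ℝ), y ≠ i + tp ∧ y ≠ i - tp)
    (hg : bc.Gp b) :
    StartV om (clR θ Zr) S₀ b (fun n f =>
      (VT θ β p S₀ n ⌊tp * (n : ℝ)⌋₊ (bc.ka l n ⌊tp * (n : ℝ)⌋₊) f : ℂ)) := by
  intro κ B hκ ε hε
  obtain ⟨δ₁, hδ₁, H1⟩ := hF l p S₀ hp hD tp h0 h1 bc hbc b hb ht hg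
  have hQ := H199.mks_ok p ⟨hb.gx, hb.gy⟩ h0 h1 ht
  obtain ⟨δ₂, hδ₂, H2⟩ := hS l p S₀ hp hD (mks p b tp) hQ bc (hbc.ok hg) κ B hκ ε hε
  set δ : ℝ := min δ₁ δ₂ / 2 with hδ
  have hδ0 : 0 < δ := by positivity
  have hδ1 : δ < δ₁ := (half_lt_self (by positivity)).trans_le (min_le_left _ _)
  have hδ2 : δ < δ₂ := (half_lt_self (by positivity)).trans_le (min_le_right _ _)
  obtain ⟨c₀, hc₀, hev⟩ := H2 δ hδ0 hδ2
  refine ⟨Fin l × Fin ((mks p b tp).m + 1), inferInstance, _, _, H1 δ hδ0 hδ1, c₀, hc₀, ?_⟩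
  filter_upwards [hev] with n hn
  have e0 : om (H680.T.insW (⟨(PT θ β p (mks p b tp) n ⌊δ * (n : ℝ)⌋₊ bc Zr 0).w, 0⟩ :
      WCG (Fin l × Fin ((mks p b tp).m + 1))) (fc_zero _)).1 =
      (WX θ P (PT θ β p (mks p b tp) n ⌊δ * (n : ℝ)⌋₊ bc Zr 0) : ℂ) :=
    om_insW hom _ _
  rw [e0, Complex.ofReal_re]
  refine ⟨hn.1, fun c hc hfl => ?_⟩
  rw [om_insW hom _ hc]
  have h3 := hn.2 c hc hfl
  show ‖((WX θ P (PT θ β p (mks p b tp) n ⌊δ * (n : ℝ)⌋₊ bc Zr c) : ℝ) : ℂ) -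
    ((WX θ P (PT θ β p (mks p b tp) n ⌊δ * (n : ℝ)⌋₊ bc Zr 0) : ℝ) : ℂ) *
      ((VT θ β p S₀ n ⌊tp * (n : ℝ)⌋₊ (bc.ka l n ⌊tp * (n : ℝ)⌋₊) (dv c) : ℝ) : ℂ)‖ ≤ _
  rw [← Complex.ofReal_mul, ← Complex.ofReal_sub, Complex.norm_real]
  exact h3

/-- **The output of block 2A.** -/
theorem s2aQq_of {θ β : ℝ} (hθ0 : 0 < θ) (hθ1 : θ ≤ Real.pi / 3) {P : Measure Cfg}
    [IsProbabilityMeasure P] {om : Ins → ℂ} (hom : OmQ θ P om) {Zr : ℕ → Row → ℝ}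
    (hpos : ∀ {κ : ℝ}, 0 < κ → ∀ᶠ n : ℕ in atTop, ∀ r : Row, r.Ok θ κ n → 0 < Zr n r)
    (hY : CentreQ om (2 / (Real.pi - θ))) (hH : HOSp θ P Zr) (hS : STARTp θ β P Zr)
    (hF : FAMq θ β Zr) : S2aQq θ β := by
  intro l _ p S₀ hp hD tp h0 h1 bc hbc b hb ht hg φ₁ φ₂ ψ d1 d2 d3 k1 k2 k3 t1 t2 t3 j1 j2 s
  have hpi := Real.pi_pos
  have hc1 : 1 ≤ 2 * Real.cos θ := by
    have h := Real.cos_le_cos_of_nonneg_of_le_pi hθ0.le (by linarith) hθ1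
    rw [Real.cos_pi_div_three] at h
    linarith
  have hc2 : 1 ≤ 2 * Real.cos (θ / 2) := by
    have h := Real.cos_le_cos_of_nonneg_of_le_pi (x := θ / 2) (y := Real.pi / 3) (by linarith)
      (by linarith) (by linarith)
    rw [Real.cos_pi_div_three] at h
    linarith
  have hok := hom.ok hc1 hθ0.le (by linarith)
  have hdat : H680.Dat S₀ b φ₁ φ₂ ψ :=
    ⟨hb.lr, hb.bt, hb.sub, d1, d2, d3, k1, k2, k3, t1, t2, t3, j1, j2⟩
  have key := H680.T.s2a_abs hc2 hom.isOm hok (clR_ok hpos) (hosQ_of hom hH) hY hdat s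
    (startV_of hom hS hF hp hD h0 h1 hbc hb ht hg)
  have h2 := (Complex.continuous_re.tendsto 0).comp key
  rw [Complex.zero_re] at h2
  refine h2.congr fun n => ?_
  simp only [Function.comp_apply, ← Complex.ofReal_mul, ← Complex.ofReal_sub, Complex.ofReal_re]

end Vale.Agent.P167.H825.Q
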