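import Vale.Agent.P167.H825.Q.DefsQ
import Vale.Agent.P167.H680.Q.YG
import Vale.Agent.P167.H199.QOmQ

/-!
# P167, general `q`, block 2A: the output from `HOSp`, `STARTp` and `FAMq`
-/

namespace Vale.Agent.P167.H825.Q

open Finset Filter Topology MeasureTheory
open Vale.Agent.P167.H592
open Vale.Agent.P167.H519 (IsLim)

/-- **The output of block 2A** for the random cluster measure `P` of the plane with
`√q = 2 cos θ`, `1 ≤ q < 4`. -/
theorem s2aQq_main {θ β : ℝ} (hθ0 : 0 < θ) (hθ1 : θ ≤ Real.pi / 3) {P : Measure Cfg}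
    (hP : IsLim (2 * Real.cos θ) P) {Zr : ℕ → Row → ℝ}
    (hpos : ∀ {κ : ℝ}, 0 < κ → ∀ᶠ n : ℕ in atTop, ∀ r : Row, r.Ok θ κ n → 0 < Zr n r)
    (hH : HOSp θ P Zr) (hS : STARTp θ β P Zr) (hF : FAMq θ β Zr) : S2aQq θ β := by
  have hpi := Real.pi_pos
  have := hP.1
  obtain ⟨om, hom⟩ := H199.exists_omQ hθ0 hθ1 hP
  exact s2aQq_of hθ0 hθ1 hom hpos (H680.Q.centreQ hθ0 (by linarith) hom.isOm) hH hS hF

end Vale.Agent.P167.H825.Q
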