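import Vale.Agent.P167.H825.Q.Frm
import Vale.Agent.P167.XDL.EnlR

/-!
# P167, general `q`, block 2A: the phases and colours along a row of the frame
-/

namespace Vale.Agent.P167.H825.Q

open Finset
open Vale.Agent.P167.XDL (bS mem_bS)
open Vale.Agent.P167.H680.T (WallG)
open Vale.Agent.P167.H825 (pdir ptau Marks rnd bsite enl)
open Vale.Agent.P167.E6 (IsPolygon Encloses dir face)
open Vale.Agent.P167.Enl (kOf uN sW eW tB kOf_div kOf_lt ptau_l tB_lt lt_n)

variable {l : ℕ} {p : ZMod l → ℤ × ℤ} {n t : ℕ} {S₀ : Finset (ℤ × ℤ)}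

/-- The special step of a side. -/
noncomputable def jpos (n t : ℕ) (bc : Bc) (i : ℕ) : ℕ := if i = 0 then t else bc.tn n

/-- The direction on a side. -/
theorem uN_kOf (hp : IsPolygon p) (hD : Encloses p S₀) (ht : t < n) {i σ : ℕ} (hi : i < l)
    (hσ : σ < n) : uN p n t (kOf l n t i σ) =
      (((pdir p 0).val : ℕ) : ℤ) + (if i = 0 then (if σ < t then 4 else 0) else ptau p i) := by
  unfold uN
  rw [kOf_div hσ hi ht]
  by_cases hi0 : i = 0
  · subst hi0
    rw [if_pos rfl, zero_mul, zero_add]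
    by_cases h : t ≤ σ
    · rw [if_pos h, if_neg (by omega)]
      rfl
    · rw [if_neg h, if_pos (by omega), add_zero, ptau_l hp hD]
  · have h5 : n ≤ i * n := Nat.le_mul_of_pos_left n (by omega)
    rw [if_neg hi0, if_pos (by omega)]

/-- The part of the boundary on a side. -/
theorem ka_kOf {bc : Bc} {Q : Marks} (hb : bc.Ok l Q) (ht : t < n) {i σ : ℕ} (hi : i < l)
    (hσ : σ < n) : kOf l n t i σ < bc.ka l n t ↔
      match bc with
      | .free => True
      | .wired => False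
      | .dob ia ta => if i = 0 then t ≤ σ else i < ia ∨ (i = ia ∧ σ < ⌊ta * n⌋₊) := by
  cases bc with
  | free => exact iff_of_true (kOf_lt hi hσ ht) trivial
  | wired => exact iff_of_false (Nat.not_lt_zero _) id
  | dob ia ta =>
    obtain ⟨h1, h2, h3, h4, -⟩ := hb
    have hn : 0 < n := by omega
    have hta : ⌊ta * n⌋₊ < n := by
      rw [Nat.floor_lt (by positivity)]
      have : (0 : ℝ) < n := by exact_mod_cast hn
      nlinarith
    have h5 : n ≤ ia * n := Nat.le_mul_of_pos_left n (by omega)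
    have h6 : (ia + 1) * n ≤ l * n := Nat.mul_le_mul_right n h2
    have h7 : (i + 1) * n ≤ l * n := Nat.mul_le_mul_right n hi
    rw [add_mul, one_mul] at h6 h7
    show kOf l n t i σ < kOf l n t ia ⌊ta * n⌋₊ ↔
      (if i = 0 then t ≤ σ else i < ia ∨ (i = ia ∧ σ < ⌊ta * n⌋₊))
    have e1 : kOf l n t ia ⌊ta * n⌋₊ = ia * n + ⌊ta * n⌋₊ - t := by
      unfold kOf
      rw [if_pos (by omega)]
    rw [e1]
    by_cases hi0 : i = 0
    · subst hi0
      rw [if_pos rfl]
      unfold kOf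
      split_ifs with h8 <;> constructor <;> intro h9 <;> omega
    · rw [if_neg hi0]
      have h8 : n ≤ i * n := Nat.le_mul_of_pos_left n (by omega)
      have e2 : kOf l n t i σ = i * n + σ - t := by
        unfold kOf
        rw [if_pos (by omega)]
      rw [e2]
      rcases lt_trichotomy i ia with h9 | h9 | h9
      · have h10 : (i + 1) * n ≤ ia * n := Nat.mul_le_mul_right n h9
        rw [add_mul, one_mul] at h10
        exact iff_of_true (by omega) (Or.inl h9)
      · subst h9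
        constructor
        · intro h; exact Or.inr ⟨rfl, by omega⟩
        · rintro (h | ⟨-, h⟩) <;> omega
      · have h10 : (ia + 1) * n ≤ i * n := Nat.mul_le_mul_right n h9
        rw [add_mul, one_mul] at h10
        refine iff_of_false (by omega) ?_
        rintro (h | ⟨h, -⟩) <;> omega

/-- Two steps of a side on the same side of the special step. -/
theorem same_side {bc : Bc} {Q : Marks} (hp : IsPolygon p) (hD : Encloses p S₀) (hb : bc.Ok l Q)
    (ht : t < n) {i σ σ' : ℕ} (hi : i < l) (hσ : σ < n) (hσ' : σ' < n)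
    (h : σ < jpos n t bc i ↔ σ' < jpos n t bc i) :
    uN p n t (kOf l n t i σ) = uN p n t (kOf l n t i σ') ∧
      (kOf l n t i σ < bc.ka l n t ↔ kOf l n t i σ' < bc.ka l n t) := by
  rw [uN_kOf hp hD ht hi hσ, uN_kOf hp hD ht hi hσ', ka_kOf hb ht hi hσ, ka_kOf hb ht hi hσ']
  unfold jpos at h
  by_cases hi0 : i = 0
  · rw [if_pos hi0] at h
    refine ⟨by simp only [hi0, if_true, h], ?_⟩
    cases bc with
    | free => exact Iff.rfl
    | wired => exact Iff.rfl
    | dob ia ta =>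
      show (if i = 0 then t ≤ σ else _) ↔ (if i = 0 then t ≤ σ' else _)
      rw [if_pos hi0, if_pos hi0]
      omega
  · rw [if_neg hi0] at h
    refine ⟨by simp only [hi0, if_false], ?_⟩
    cases bc with
    | free => exact Iff.rfl
    | wired => exact Iff.rfl
    | dob ia ta =>
      show (if i = 0 then _ else _) ↔ (if i = 0 then _ else _)
      rw [if_neg hi0, if_neg hi0]
      have h' : σ < ⌊ta * n⌋₊ ↔ σ' < ⌊ta * n⌋₊ := h
      rw [h']

theorem cst_of {F : ℕ → ℝ} {s e jp m : ℕ} (he : ∀ σ, s ≤ σ → σ < e → σ < m)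
    (h : ∀ σ σ', σ < m → σ' < m → (σ < jp ↔ σ' < jp) → F σ = F σ') : Cst s e jp F := by
  intro σ h1 h2
  by_cases h3 : σ < jp
  · rw [if_pos h3]
    exact h _ _ (he σ h1 h2) (he s le_rfl (by omega)) (by omega)
  · rw [if_neg h3]
    exact h _ _ (he σ h1 h2) (he (e - 1) (by omega) (by omega)) (by omega)

section frame

variable {θ β : ℝ} {Q : Marks} {d : ℕ} {bc : Bc}

theorem frow_eq (i j : ℕ) : frow θ β p Q n d bc i j = srow ((n : ℤ) • p i) (pdir p i)
    (sW p n Q d i j) (eW p n Q d i j) (jpos n (tB n Q) bc i)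
    (fun σ => stΦ θ β (uN p n (tB n Q)) (bc.ka l n (tB n Q)) (kOf l n (tB n Q) i σ))
    (fun σ => stτ (bc.ka l n (tB n Q)) (kOf l n (tB n Q) i σ)) := rfl

/-- The phase of a square of a row of the frame. -/
theorem frow_Φ (hp : IsPolygon p) (hD : Encloses p S₀) (hQ : Q.Ok) (hb : bc.Ok l Q) (hd : 1 ≤ d)
    {i j σ : ℕ} (hi : i < l) (hj : j ≤ Q.m) (h1 : sW p n Q d i j ≤ σ) (h2 : σ < eW p n Q d i j) :
    (frow θ β p Q n d bc i j).Φ (osq ((n : ℤ) • p i) (pdir p i) σ) =
      stΦ θ β (uN p n (tB n Q)) (bc.ka l n (tB n Q)) (kOf l n (tB n Q) i σ) := by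
  have hσ := lt_n hQ hd hj h1 h2
  have ht := tB_lt (n := n) hQ (by omega)
  rw [frow_eq]
  refine srow_Φ _ _ (cst_of (m := n) (fun σ h1 h2 => lt_n hQ hd hj h1 h2) ?_) h1 h2
  intro σ σ' hσ hσ' h
  obtain ⟨h3, h4⟩ := same_side hp hD hb ht hi hσ hσ' h
  show θ / 4 * _ + (if _ then _ else _) = θ / 4 * _ + (if _ then _ else _)
  rw [h3]
  simp only [h4]

/-- The colour of a square of a row of the frame. -/
theorem frow_τ (hp : IsPolygon p) (hD : Encloses p S₀) (hQ : Q.Ok) (hb : bc.Ok l Q) (hd : 1 ≤ d)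
    {i j σ : ℕ} (hi : i < l) (hj : j ≤ Q.m) (h1 : sW p n Q d i j ≤ σ) (h2 : σ < eW p n Q d i j) :
    (frow θ β p Q n d bc i j).τ (osq ((n : ℤ) • p i) (pdir p i) σ) =
      stτ (bc.ka l n (tB n Q)) (kOf l n (tB n Q) i σ) := by
  have hσ := lt_n hQ hd hj h1 h2
  have ht := tB_lt (n := n) hQ (by omega)
  rw [frow_eq]
  refine srow_τ _ _ (cst_of (m := n) (fun σ h1 h2 => lt_n hQ hd hj h1 h2) ?_)
    (fun k => stτ_or _ _) h1 h2
  intro σ σ' hσ hσ' h
  obtain ⟨h3, h4⟩ := same_side hp hD hb ht hi hσ hσ' h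
  show (if _ then (1 : ℝ) else -1) = (if _ then 1 else -1)
  simp only [h4]

/-- The squares of a row of the frame. -/
theorem mem_frow {i j : ℕ} {v : ℤ × ℤ} : v ∈ (frow θ β p Q n d bc i j).I ↔
    ∃ σ, sW p n Q d i j ≤ σ ∧ σ < eW p n Q d i j ∧ v = osq ((n : ℤ) • p i) (pdir p i) σ :=
  mem_srow

end frame

end Vale.Agent.P167.H825.Q
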